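import Vale.Agent.P032.S5.H483.Irr

/-!
# P032: the run lemma

`run_inside`: if a colour `e`, not in the palette of `z`, is carried by an arc of `S(z)` through `v`,
then all points near `v` inside the disc about `z` are in `U e`.
`run_far`: if moreover `v` has at least four colours (minimal palette), then every other colour of
`v` has pure points outside the disc arbitrarily near `v`.
-/

open Set Filter Topology Metric

noncomputable section

namespace Vale.Agent.P032.H642

open Vale.Agent.P032.Six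

variable {k : ℕ} {U : Fin k → Set ℂ} {T : ℂ → Set (Fin k)}

/-- one of the two common points of the unit circles about `z` and `w` -/
def cr (z w : ℂ) : ℂ :=
  (z + w) / 2 + Complex.I * ((Real.sqrt (1 - (dist w z) ^ 2 / 4) / dist w z : ℝ) : ℂ) * (w - z)

theorem dist_cr {z w : ℂ} (h0 : 0 < dist w z) (h2 : dist w z ≤ 2) :
    dist (cr z w) z = 1 ∧ dist (cr z w) w = 1 := by
  set D := dist w z with hD
  set c : ℝ := Real.sqrt (1 - D ^ 2 / 4) / D with hc
  have hDw : ‖w - z‖ = D := by rw [hD, dist_eq_norm]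
  have hs : 0 ≤ 1 - D ^ 2 / 4 := by nlinarith
  have hc2 : c ^ 2 * D ^ 2 = 1 - D ^ 2 / 4 := by
    rw [hc, div_pow, Real.sq_sqrt hs]
    field_simp
  have key : ∀ s : ℝ, s ^ 2 = 1 / 4 →
      ‖((s : ℂ) + Complex.I * (c : ℂ)) * (w - z)‖ = 1 := by
    intro s hs2
    rw [norm_mul, hDw]
    have h1 : ‖(s : ℂ) + Complex.I * (c : ℂ)‖ ^ 2 = s ^ 2 + c ^ 2 := by
      rw [← Complex.normSq_eq_norm_sq, Complex.normSq_apply]
      simp
      ring
    have h3 : (‖(s : ℂ) + Complex.I * (c : ℂ)‖ * D) ^ 2 = 1 := by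
      rw [mul_pow, h1, add_mul, hc2, hs2]; ring
    have h4 : 0 ≤ ‖(s : ℂ) + Complex.I * (c : ℂ)‖ * D := by positivity
    nlinarith
  have hcr : cr z w = (z + w) / 2 + Complex.I * (c : ℂ) * (w - z) := rfl
  refine ⟨?_, ?_⟩
  · rw [dist_eq_norm, ← key (1 / 2) (by norm_num)]
    congr 1
    rw [hcr]
    push_cast
    ring
  · rw [dist_eq_norm, ← key (-1 / 2) (by norm_num)]
    congr 1
    rw [hcr]
    push_cast
    ring

theorem tendsto_cr {z v : ℂ} (hv : dist v z = 1) :
    Tendsto (cr z) (𝓝 (2 * v - z)) (𝓝 v) := by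
  have hd : dist (2 * v - z) z = 2 := by
    rw [dist_eq_norm] at hv ⊢
    have : 2 * v - z - z = 2 * (v - z) := by ring
    rw [this, norm_mul, hv]
    simp
  have h1 : ContinuousAt (cr z) (2 * v - z) := by
    have h2 : ContinuousAt (fun w : ℂ => dist w z) (2 * v - z) := by fun_prop
    have h3 : ContinuousAt (fun w : ℂ => Real.sqrt (1 - (dist w z) ^ 2 / 4) / dist w z)
        (2 * v - z) := by
      refine ContinuousAt.div ?_ h2 (by rw [hd]; norm_num)
      exact (Real.continuous_sqrt.continuousAt).comp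
        (continuousAt_const.sub ((h2.pow 2).div_const 4))
    have h4 : ContinuousAt (fun w : ℂ =>
        ((Real.sqrt (1 - (dist w z) ^ 2 / 4) / dist w z : ℝ) : ℂ)) (2 * v - z) :=
      (Complex.continuous_ofReal.continuousAt).comp h3
    have h5 : ContinuousAt (fun w : ℂ => (z + w) / 2 + Complex.I *
        ((Real.sqrt (1 - (dist w z) ^ 2 / 4) / dist w z : ℝ) : ℂ) * (w - z)) (2 * v - z) := by
      refine ContinuousAt.add (by fun_prop) (ContinuousAt.mul (continuousAt_const.mul h4) ?_)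
      fun_prop
    exact h5
  have h6 : cr z (2 * v - z) = v := by
    rw [cr, hd]
    norm_num
  have := h1.tendsto
  rwa [h6] at this

/-- near `2 v - z` the points inside the circle of radius two about `z` are not in `U e` -/
theorem outer_free (h : Irr U T) {z v : ℂ} {e : Fin k} (hv : dist v z = 1)
    (hJ : ∀ᶠ q in 𝓝[sphere z 1] v, e ∈ Pal U q) :
    ∀ᶠ w in 𝓝 (2 * v - z), dist w z < 2 → w ∉ U e := by
  obtain ⟨s, hs, hsub⟩ := mem_nhdsWithin_iff_exists_mem_nhds_inter.1 hJ
  have hd : dist (2 * v - z) z = 2 := by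
    rw [dist_eq_norm] at hv ⊢
    have : 2 * v - z - z = 2 * (v - z) := by ring
    rw [this, norm_mul, hv]
    simp
  have h1 : ∀ᶠ w in 𝓝 (2 * v - z), 0 < dist w z := by
    have h2 : ContinuousAt (fun w : ℂ => dist w z) (2 * v - z) := by fun_prop
    have h3 : (0 : ℝ) < dist (2 * v - z) z := by rw [hd]; norm_num
    exact h2.eventually (lt_mem_nhds h3)
  filter_upwards [(tendsto_cr hv).eventually hs, h1] with w hw h0 h2 hwU
  obtain ⟨h3, h4⟩ := dist_cr h0 h2.le
  have h5 : e ∈ Pal U (cr z w) := hsub ⟨hw, h3⟩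
  exact h.mx.free e w hwU _ h5 (by rw [dist_comm]; exact h4)

/-- **Run lemma.** If `e`, not in the palette of `z`, is carried by an arc of `S(z)` through `v`,
then all points near `v` inside the disc about `z` are in `U e`. -/
theorem run_inside (h : Irr U T) {z v : ℂ} {e : Fin k} (hv : dist v z = 1)
    (hJ : ∀ᶠ q in 𝓝[sphere z 1] v, e ∈ Pal U q) (hz : e ∉ Pal U z) :
    ∀ᶠ x in 𝓝 v, dist x z < 1 → x ∈ U e := by
  obtain ⟨r, hr, hball⟩ := Metric.eventually_nhds_iff.1 (outer_free h hv hJ)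
  -- also for the closure
  have hcl : ∀ w, dist w (2 * v - z) < r → dist w z < 2 → w ∉ closure (U e) := by
    intro w hw1 hw2 hw
    have ho : IsOpen (ball (2 * v - z) r ∩ ball z 2) := isOpen_ball.inter isOpen_ball
    obtain ⟨y, hy1, hy2⟩ := mem_closure_iff.1 hw _ ho ⟨hw1, hw2⟩
    exact hball hy1.1 hy1.2 hy2
  -- the rest of the closure is away from the circle about `v`
  have hCc : IsClosed (closure (U e) \ ball (2 * v - z) r) :=
    isClosed_closure.sdiff isOpen_ball
  have hdisj : Disjoint (sphere v (1 : ℝ)) (closure (U e) \ ball (2 * v - z) r) := by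
    rw [Set.disjoint_left]
    rintro w hw ⟨hwe, hwr⟩
    have hw' : dist v w = 1 := by rw [dist_comm]; exact hw
    rcases h.mx.partner_line hv hJ hw' hwe with h1 | h1
    · exact hz (h1 ▸ hwe)
    · apply hwr
      have : w = 2 * v - z := by rw [← h1]; ring
      rw [this]
      exact mem_ball_self hr
  obtain ⟨m, hm, hmd⟩ := hdisj.exists_thickenings (isCompact_sphere v 1) hCc
  filter_upwards [ball_mem_nhds v hm] with x hx hxz
  refine h.max e x fun w hw hxw => ?_
  by_cases hwr : dist w (2 * v - z) < r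
  · refine hcl w hwr ?_ hw
    have := dist_triangle w x z
    rw [dist_comm w x] at this
    linarith
  · have h1 : v + (w - x) ∈ sphere v (1 : ℝ) := by
      rw [mem_sphere, dist_eq_norm, add_sub_cancel_left, ← dist_eq_norm, dist_comm]; exact hxw
    have h2 : w ∈ thickening m (sphere v (1 : ℝ)) := by
      rw [mem_thickening_iff]
      refine ⟨v + (w - x), h1, ?_⟩
      rw [dist_eq_norm]
      have : w - (v + (w - x)) = x - v := by ring
      rw [this, ← dist_eq_norm]; exact hx
    exact Set.disjoint_left.1 hmd h2 (self_subset_thickening hm _ ⟨hw, hwr⟩)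

/-- **Run lemma, second part.** If moreover the palette of `v` is minimal sufficient, then every
colour of `v` other than `e` has pure points outside the disc about `z` arbitrarily near `v`. -/
theorem run_far (h : Irr U T) {z v : ℂ} {e : Fin k} (hv : dist v z = 1)
    (hJ : ∀ᶠ q in 𝓝[sphere z 1] v, e ∈ T q) (hz : e ∉ Pal U z)
    (hmn : ∀ s, s ⊆ T v → s ≠ T v →
      ¬ ∀ᶠ w in 𝓝 v, ∃ i ∈ s, w ∈ U i ∨ (w ∈ XX U ∧ i ∈ Pal U w))
    {i : Fin k} (hi : i ∈ T v) (hie : i ≠ e) :
    ∃ᶠ w in 𝓝 v, T w = {i} ∧ 1 < dist w z := by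
  have hev : e ∈ T v := hJ.self_of_nhdsWithin hv
  have h1 := hmn (T v \ {i}) sdiff_subset (fun hcon => by
    have h0 := hi
    rw [← hcon] at h0
    exact h0.2 rfl)
  have h2 : ∃ᶠ w in 𝓝 v, ¬ ∃ j ∈ T v \ {i}, w ∈ U j ∨ (w ∈ XX U ∧ j ∈ Pal U w) :=
    not_eventually.1 h1
  have hJ' : ∀ᶠ q in 𝓝 v, q ∈ sphere z (1 : ℝ) → e ∈ T q := eventually_nhdsWithin_iff.1 hJ
  have hin := run_inside h hv (hJ.mono fun q hq => h.sub q hq) hz
  refine (h2.and_eventually ((h.nhd v).and (hJ'.and hin))).mono ?_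
  rintro w ⟨hw, hwT, hwJ, hwin⟩
  push Not at hw
  have heS : e ∈ T v \ {i} := ⟨hev, fun hcon => hie hcon.symm⟩
  have hno : ∀ j ∈ T w, j = i := by
    intro j hj
    by_contra hji
    obtain ⟨h3, h4⟩ := hw j ⟨hwT hj, hji⟩
    by_cases hX : w ∈ XX U
    · exact h4 hX (h.sub w hj)
    · exact h3 (h.off w hX j hj)
  refine ⟨?_, ?_⟩
  · obtain ⟨j, hj⟩ := h.ne w
    refine Subset.antisymm (fun m hm => hno m hm) ?_
    rintro m rfl
    exact hno j hj ▸ hj
  · by_contra hcon
    rcases (not_lt.1 hcon).lt_or_eq with h3 | h3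
    · exact (hw e heS).1 (hwin h3)
    · exact hie (hno e (hwJ h3)).symm

end Vale.Agent.P032.H642
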