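import Vale.Agent.P032.S5.H172.Rhombus
import Vale.Agent.P032.S5.H767.Exc
import Vale.Agent.P032.S5.H360.Degree

/-!
# P032: the rhombus at good ends

`z` a centre with the exact pairs `ab` and `cd`, missing colours `g`, `p`; `v` in the closure of the
exact `ab`-arcs, `q` in the closure of the exact `cd`-arcs, `{a, b, g}` a face at `v` (no palette on
`S(v)` is inside it) and `{c, d, p}` a face at `q`.  `v` and `q` may have four colours, the fourth one
being the other missing colour of `z`.  Then `w = v + q - z` has the palette `{g, i, p, j}` (`i` one of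
`a`, `b`, `j` one of `c`, `d`), exact `gi`-arcs of `S(w)` accumulate at `v` and exact `pj`-arcs at `q`.
-/

open Set Filter Topology Metric

noncomputable section

namespace Vale.Agent.P032.H642

open Vale.Agent.P032.Six Vale.Agent.P032.S5.H767

section general

variable {k : ℕ} {U : Fin k → Set ℂ} {T : ℂ → Set (Fin k)}

theorem acc_of_closure {z v : ℂ} {P : Set (Fin k)} (hv : v ∈ closure (Ex T z P)) :
    Acc T z P v := by
  intro V hV
  obtain ⟨y, hyV, hy⟩ := mem_closure_iff_nhds.1 hv V hV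
  exact ⟨y, hyV, hy.1, hy.2⟩

theorem closure_of_acc {z v : ℂ} {P : Set (Fin k)} (hA : Acc T z P v) :
    v ∈ closure (Ex T z P) := by
  refine mem_closure_iff_nhds.2 fun V hV => ?_
  obtain ⟨y, hyV, hy1, hy2⟩ := hA V hV
  exact ⟨y, hyV, hy1, hy2⟩

/-- the colours of an exact arc are absent at the second points -/
theorem shift_free (h : Irr U T) {z y q : ℂ} {P : Set (Fin k)} (hy : y ∈ Ex T z P)
    (hq : dist q z = 1) (hne : y ≠ q) (hop : y + q ≠ 2 * z) {i : Fin k} (hi : i ∈ P) :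
    i ∉ T (y + q - z) := by
  intro hc
  refine line_free h hy.1 (hy.2.mono fun r hr => by rw [hr]; exact hi) (v := y + q - z)
    ?_ ?_ ?_ (h.sub _ hc)
  · rw [dist_comm, dist_eq_norm, show y + q - z - y = q - z by ring, ← dist_eq_norm]; exact hq
  · intro h1; exact hop (by linear_combination h1)
  · intro h1; exact hne (by linear_combination -h1)

/-- **Antipodes** for a face -/
theorem antiF (h : Irr U T) {z v q : ℂ} {P Q : Set (Fin k)} (hTz : T z ⊆ P ∪ Q)
    (hv : dist v z = 1) (hF : Fc T v P) (hq : q ∈ closure (Ex T z Q)) : v + q ≠ 2 * z := by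
  intro hop
  have hcont : Tendsto (fun w : ℂ => v + w - z) (𝓝 q) (𝓝 z) := by
    have : Continuous fun w : ℂ => v + w - z := by fun_prop
    have h2 := this.tendsto q
    have e : v + q - z = z := by linear_combination hop
    rw [e] at h2; exact h2
  have hV := hcont.eventually (h.nhd z)
  obtain ⟨w', hw'V, hw'⟩ := mem_closure_iff_nhds.1 hq _ (eventually_eventually_nhds.2 hV)
  have hw'V : ∀ᶠ w in 𝓝 w', T (v + w - z) ⊆ T z := hw'V
  have hs : {r | r ∈ Ex T z Q ∧ T (v + r - z) ⊆ T z} ∈ 𝓝[sphere z 1] w' :=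
    (ex_open hw').and (mem_nhdsWithin_of_mem_nhds hw'V)
  obtain ⟨r, ⟨hrE, hrs⟩, hrz, hry, hry2, -⟩ := exists_generic (y := v) hw'.1 hs
  have hwy : dist (v + r - z) v = 1 := by
    rw [dist_eq_norm, show v + r - z - v = r - z by ring, ← dist_eq_norm]; exact hrz
  refine hF _ hwy fun m hm => ?_
  rcases hTz (hrs hm) with h1 | h1
  · exact h1
  · exfalso
    have h2 := shift_free h hrE hv hry hry2 h1
    rw [show r + v - z = v + r - z by ring] at h2
    exact h2 hm

/-- **Strip lemma** with a face at `u'`.  `q` a common neighbour of `u` and `u'`, `T q ⊆ P ∪ s`, `s` a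
face at `u'`.  Then `P`-arcs of no other circle `S(p)` accumulate at `u`. -/
theorem stripF (h : Irr U T) {u u' q p : ℂ} {P s : Set (Fin k)} (hF : Fc T u' s)
    (hne : u ≠ u') (hq : dist q u = 1) (hq' : dist q u' = 1) (hne2 : u + u' ≠ 2 * q)
    (hsub : T q ⊆ P ∪ s) (hPu : T u ≠ P) (hpq : p ≠ q) (hA : Acc T p P u) : False := by
  obtain ⟨t0, ht0⟩ := exists_cis (u := q - u') (by rw [← dist_eq_norm]; exact hq')
  have hq0 : u' + cis t0 = q := by rw [← ht0]; ring
  have hcr0 : Six.cr (q - u') (q - u) ≠ 0 :=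
    cr_ne hq' hq (Ne.symm hne) (by rw [add_comm]; exact hne2)
  have hcr : Six.cr (cis t0) (u' + cis t0 - u) ≠ 0 := by
    rw [hq0, ← ht0]; exact hcr0
  -- neighbourhood of `q`
  have hc : Continuous fun t : ℝ => u' + cis t := continuous_const.add continuous_cis
  have hN : ∀ᶠ t in 𝓝 t0, T (u' + cis t) ⊆ T q ∧ u' + cis t ≠ p ∧
      (q + p ≠ 2 * u → 2 * dist (u' + cis t) q < dist (q + p) (2 * u)) := by
    refine Filter.Eventually.and ?_ (Filter.Eventually.and ?_ ?_)
    · have h1 : ∀ᶠ x in 𝓝 (u' + cis t0), T x ⊆ T q := by rw [hq0]; exact h.nhd q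
      exact hc.continuousAt.eventually h1
    · exact hc.continuousAt.eventually (isOpen_ne.mem_nhds (show u' + cis t0 ≠ p by
        rw [hq0]; exact hpq.symm))
    · by_cases hqp : q + p = 2 * u
      · exact Eventually.of_forall fun t h1 => absurd hqp h1
      · have h1 : 0 < dist (q + p) (2 * u) := dist_pos.2 hqp
        have h2 : Continuous fun t : ℝ => 2 * dist (u' + cis t) q := by fun_prop
        have h3 : 2 * dist (u' + cis t0) q < dist (q + p) (2 * u) := by
          rw [hq0, dist_self, mul_zero]; exact h1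
        filter_upwards [h2.continuousAt.eventually (Iio_mem_nhds h3)] with t ht _
        exact ht
  obtain ⟨η, hη, hη'⟩ := Metric.eventually_nhds_iff.1 hN
  have hC := crossing (c := u') (q₀ := u) (t0 := t0) (by rw [hq0]; exact hq) hcr hη
  -- closeness
  have hclose : ∀ᶠ w in 𝓝 u, 2 * ‖w - u‖ < |Six.cr (q - u') (q - u)| ∧
      (q + p ≠ 2 * u → 4 * dist w u < dist (q + p) (2 * u)) := by
    refine Filter.Eventually.and ?_ ?_
    · have h2 : Continuous fun w : ℂ => 2 * ‖w - u‖ := by fun_prop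
      have h3 : 2 * ‖u - u‖ < |Six.cr (q - u') (q - u)| := by
        rw [sub_self, norm_zero, mul_zero]; exact abs_pos.2 hcr0
      exact h2.continuousAt.eventually (Iio_mem_nhds h3)
    · by_cases hqp : q + p = 2 * u
      · exact Eventually.of_forall fun t h1 => absurd hqp h1
      · have h1 : 0 < dist (q + p) (2 * u) := dist_pos.2 hqp
        have h2 : Continuous fun w : ℂ => 4 * dist w u := by fun_prop
        have h3 : 4 * dist u u < dist (q + p) (2 * u) := by rw [dist_self, mul_zero]; exact h1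
        filter_upwards [h2.continuousAt.eventually (Iio_mem_nhds h3)] with t ht _
        exact ht
  obtain ⟨w, ⟨hwC, hwc⟩, hwp, hwP⟩ := hA _ (hC.and hclose)
  obtain ⟨t, ht, ht1⟩ := hwC
  obtain ⟨hq'1, hq'2, hq'3⟩ := hη' (y := t) (by rw [Real.dist_eq]; exact ht)
  set q' := u' + cis t with hq'def
  have hTw : T w = P := hwP.self_of_nhdsWithin (show w ∈ sphere p 1 from hwp)
  have hwu : w ≠ u := fun h1 => hPu (by rw [← h1]; exact hTw)
  have hq'u : dist q' u' = 1 := by rw [hq'def]; exact dist_add_cis u' t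
  have hno : ∀ i ∈ P, i ∉ Pal U q' := by
    intro i hi hcon
    have hJ : ∀ᶠ x in 𝓝[sphere p 1] w, i ∈ Pal U x := by
      filter_upwards [hwP] with x hx
      exact h.sub x (by rw [hx]; exact hi)
    rcases h.mx.partner_line hwp hJ (by rw [dist_comm]; exact ht1) hcon with h1 | h1
    · exact hq'2 h1
    · by_cases hqp : q + p = 2 * u
      · -- tangent case
        have hp : p = 2 * u - q := by linear_combination hqp
        have e1 : q' - u' = (q - u') + 2 * (w - u) := by
          rw [hp] at h1; linear_combination h1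
        have e2 : w - p = (q - u) + (w - u) := by rw [hp]; ring
        have hsq : ∀ {x y : ℂ}, dist x y = 1 → (x - y).re ^ 2 + (x - y).im ^ 2 = 1 := by
          intro x y hxy
          have := (dist_eq_one_iff x y).1 hxy
          simp only [Complex.sub_re, Complex.sub_im]
          linarith
        have := Irr.tangent_aux (A := q - u') (B := q - u) (δ := w - u)
          (by rw [← e1]; exact hsq hq'u) (by rw [← e2]; exact hsq hwp) (hsq hq') (hsq hq) hwc.1
        exact hwu (sub_eq_zero.1 this)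
      · have h2 := hq'3 hqp
        have h3 := hwc.2 hqp
        have h4 : dist (q + p) (2 * u) ≤ dist q' q + 2 * dist w u := by
          have : q + p - 2 * u = -(q' - q) + 2 * (w - u) := by linear_combination h1
          rw [dist_eq_norm, dist_eq_norm, dist_eq_norm, this]
          refine (norm_add_le _ _).trans ?_
          rw [norm_neg, norm_mul]; simp
        have h5 := dist_nonneg (x := q') (y := q)
        have h6 := dist_nonneg (x := w) (y := u)
        linarith
  refine hF q' hq'u fun j hj => ?_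
  rcases hsub (hq'1 hj) with h1 | h1
  · exact absurd (h.sub q' hj) (hno j h1)
  · exact h1

/-- the colour missing in a face of `q` is at `v + q - z` -/
theorem carry (h : Irr U T) {z v q : ℂ} {P F : Set (Fin k)} {g : Fin k}
    (hv : v ∈ closure (Ex T z P)) (hq : dist q z = 1) (hF : Fc T q F) (hne : v ≠ q)
    (hop : v + q ≠ 2 * z) (hall : ∀ i, i ∈ P ∨ i ∈ F ∨ i = g) : g ∈ T (v + q - z) := by
  by_contra hg
  have hc : Tendsto (fun y : ℂ => y + q - z) (𝓝 v) (𝓝 (v + q - z)) := by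
    have : Continuous fun y : ℂ => y + q - z := by fun_prop
    exact this.tendsto v
  have e1 := hc.eventually (h.nhd (v + q - z))
  have e2 : ∀ᶠ y in 𝓝 v, y ≠ q := isOpen_ne.mem_nhds hne
  have e3 : ∀ᶠ y in 𝓝 v, y + q ≠ 2 * z := by
    have : Continuous fun y : ℂ => y + q := by fun_prop
    exact (this.tendsto v).eventually (isOpen_ne.mem_nhds hop)
  obtain ⟨y, ⟨h1, h2, h3⟩, hy⟩ := mem_closure_iff_nhds.1 hv _ (e1.and (e2.and e3))
  have hd : dist (y + q - z) q = 1 := by
    rw [dist_eq_norm, show y + q - z - q = y - z by ring, ← dist_eq_norm]; exact hy.1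
  refine hF _ hd fun m hm => ?_
  rcases hall m with h4 | h4 | h4
  · exact absurd hm (shift_free h hy hq h2 h3 h4)
  · exact h4
  · exact absurd (h4 ▸ h1 hm) hg

/-- exact points of `S(w)` near `v` -/
theorem exact_near (h : Irr U T) {w v : ℂ} {i : Fin k} (hw4 : (T w).ncard = 4)
    (hvw : dist v w = 1) (hns : ¬ ∀ᶠ y in 𝓝[sphere w 1] v, i ∈ T y)
    (hsub : T v ⊆ insert i (T w)) {V : Set ℂ} (hV : V ∈ 𝓝 v) :
    ∃ y ∈ V, y ∈ Ex T w (T y) ∧ T y ⊆ T v ∧ T y ⊆ T w ∧ i ∉ T y ∧ (T y).ncard = 2 := by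
  have hf : ∃ᶠ y in 𝓝[sphere w 1] v, i ∉ T y := by
    rw [Filter.not_eventually] at hns; exact hns
  have e1 : ∀ᶠ y in 𝓝[sphere w 1] v, T y ⊆ T v ∧ y ∈ interior V ∧ y ∈ sphere w 1 := by
    filter_upwards [mem_nhdsWithin_of_mem_nhds (h.nhd v),
      mem_nhdsWithin_of_mem_nhds (isOpen_interior.mem_nhds (mem_interior_iff_mem_nhds.2 hV)),
      self_mem_nhdsWithin] with y h1 h2 h3
    exact ⟨h1, h2, h3⟩
  obtain ⟨y, hy, hyv, hyV, hyw⟩ := (hf.and_eventually e1).exists
  have hyw' : T y ⊆ T w := by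
    intro m hm
    rcases hsub (hyv hm) with rfl | h1
    · exact absurd hm hy
    · exact h1
  obtain ⟨r, hrV, hrw, hrc, hrs, hr2, hr3⟩ := h.arc_of_sub (x := w) (y := y) hyw hyw'
    (isOpen_interior.mem_nhds hyV)
  have h5 := Set.ncard_sdiff (hrs.trans hyw') (Set.toFinite _)
  exact ⟨r, interior_subset hrV, ⟨hrw, hrc⟩, hrs.trans hyv, hrs.trans hyw',
    fun h6 => hy (hrs h6), by omega⟩

/-- a colour of the first centre is not solid at `v` on the circle of the second centre -/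
theorem not_solid (h : Irr U T) {z v w : ℂ} {i : Fin k} (hvz : dist v z = 1)
    (hvw : dist v w = 1) (hi : i ∈ T z) (h1 : z ≠ w) (h2 : z + w ≠ 2 * v) :
    ¬ ∀ᶠ y in 𝓝[sphere w 1] v, i ∈ T y :=
  fun hJ => line_free h hvw hJ hvz h1 h2 (h.sub z hi)

end general

/-! ### six colours -/

variable {U : Fin 6 → Set ℂ} {T : ℂ → Set (Fin 6)} {z v q : ℂ} {a b c d g p : Fin 6}

theorem all_of_nodup (nd : [a, b, c, d, g, p].Nodup) (i : Fin 6) :
    i = a ∨ i = b ∨ i = c ∨ i = d ∨ i = g ∨ i = p := by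
  have h1 : [a, b, c, d, g, p].toFinset.card = 6 := List.toFinset_card_of_nodup nd
  have h2 : [a, b, c, d, g, p].toFinset = Finset.univ :=
    Finset.eq_univ_of_card _ (by rw [h1, Fintype.card_fin])
  have h3 : i ∈ [a, b, c, d, g, p].toFinset := by rw [h2]; exact Finset.mem_univ i
  simpa using h3

/-- minimality of the palettes with at least four colours -/
def Mn4 (U : Fin 6 → Set ℂ) (T : ℂ → Set (Fin 6)) : Prop :=
  ∀ z, 4 ≤ (T z).ncard → ∀ s, s ⊆ T z → s ≠ T z →
    ¬ ∀ᶠ w in 𝓝 z, ∃ i ∈ s, w ∈ U i ∨ (w ∈ XX U ∧ i ∈ Pal U w)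

/-- a good pair of ends: `v` in the closure of the exact `ab`-arcs with the face `{a, b, g}`, `q` in the
closure of the exact `cd`-arcs with the face `{c, d, p}` -/
structure GP (T : ℂ → Set (Fin 6)) (z v q : ℂ) (a b c d g p : Fin 6) : Prop where
  nd : [a, b, c, d, g, p].Nodup
  pal : T z = {a, b, c, d}
  hv : v ∈ closure (Ex T z {a, b})
  hq : q ∈ closure (Ex T z {c, d})
  gv : g ∈ T v
  pq : p ∈ T q
  sv : T v ⊆ {a, b, g, p}
  sq : T q ⊆ {c, d, g, p}
  fv : Fc T v {a, b, g}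
  fq : Fc T q {c, d, p}

/-- an exact arc starts at `v` -/
def St (T : ℂ → Set (Fin 6)) (z v : ℂ) (P : Set (Fin 6)) : Prop :=
  ∃ o ε : ℝ, (o = 1 ∨ o = -1) ∧ 0 < ε ∧
    ∀ t ∈ Ioo 0 ε, z + (v - z) * cis (-(o * t)) ∈ Ex T z P

namespace GP

theorem swap (G : GP T z v q a b c d g p) : GP T z q v c d a b p g where
  nd := by
    have hn := G.nd
    simp only [List.nodup_cons, List.mem_cons, List.not_mem_nil, or_false, not_or, List.nodup_nil,
      and_true, not_false_eq_true] at hn ⊢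
    obtain ⟨⟨ab, ac, ad, ag, ap⟩, ⟨bc, bd, bg, bp⟩, ⟨cd, cg, cp⟩, ⟨dg, dp⟩, gp⟩ := hn
    exact ⟨⟨cd, fun h => ac h.symm, fun h => bc h.symm, cp, cg⟩,
      ⟨fun h => ad h.symm, fun h => bd h.symm, dp, dg⟩, ⟨ab, ap, ag⟩, ⟨bp, bg⟩,
      fun h => gp h.symm⟩
  pal := by
    rw [G.pal]; ext i
    simp only [mem_insert_iff, mem_singleton_iff]
    tauto
  hv := G.hq
  hq := G.hv
  gv := G.pq
  pq := G.gv
  sv := G.sq.trans (by intro i; simp only [mem_insert_iff, mem_singleton_iff]; tauto)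
  sq := G.sv.trans (by intro i; simp only [mem_insert_iff, mem_singleton_iff]; tauto)
  fv := G.fq
  fq := G.fv

theorem dv (G : GP T z v q a b c d g p) : dist v z = 1 := dist_of_closure G.hv

theorem dq (G : GP T z v q a b c d g p) : dist q z = 1 := dist_of_closure G.hq

theorem dwv (G : GP T z v q a b c d g p) : dist (v + q - z) v = 1 := by
  rw [dist_eq_norm, show v + q - z - v = q - z by ring, ← dist_eq_norm]; exact G.dq

theorem dwq (G : GP T z v q a b c d g p) : dist (v + q - z) q = 1 := by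
  rw [dist_eq_norm, show v + q - z - q = v - z by ring, ← dist_eq_norm]; exact G.dv

theorem ne (h : Irr U T) (G : GP T z v q a b c d g p) : v ≠ q := by
  rintro rfl
  have h1 : c ∈ T v := sub_of_closure h G.hq (by simp)
  have hn := G.nd
  simp only [List.nodup_cons, List.mem_cons, List.not_mem_nil, or_false, not_or, List.nodup_nil,
    and_true, not_false_eq_true] at hn
  have h2 := G.sv h1
  simp only [mem_insert_iff, mem_singleton_iff] at h2
  rcases h2 with h2 | h2 | h2 | h2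
  · exact hn.1.2.1 h2.symm
  · exact hn.2.1.1 h2.symm
  · exact hn.2.2.1.2.1 h2
  · exact hn.2.2.1.2.2 h2

theorem op (h : Irr U T) (G : GP T z v q a b c d g p) : v + q ≠ 2 * z := by
  refine antiF h (P := {a, b}) (Q := {c, d}) ?_ G.dv (G.fv.mono ?_) G.hq
  · rw [G.pal]; intro i; simp only [mem_insert_iff, mem_singleton_iff, mem_union]; tauto
  · intro i; simp only [mem_insert_iff, mem_singleton_iff]; tauto

theorem g_mem (h : Irr U T) (G : GP T z v q a b c d g p) : g ∈ T (v + q - z) := by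
  refine carry h (P := {a, b}) (F := {c, d, p}) G.hv G.dq G.fq (G.ne h) (G.op h) fun i => ?_
  have := all_of_nodup G.nd i
  simp only [mem_insert_iff, mem_singleton_iff]
  tauto

theorem p_mem (h : Irr U T) (G : GP T z v q a b c d g p) : p ∈ T (v + q - z) := by
  have := G.swap.g_mem h
  rw [show q + v - z = v + q - z by ring] at this
  exact this

theorem i_mem (h : Irr U T) (G : GP T z v q a b c d g p) :
    ∃ i, (i = a ∨ i = b) ∧ i ∈ T (v + q - z) := by
  by_contra hcon
  push Not at hcon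
  have hsub : T (v + q - z) ⊆ insert g {c, d, p} := by
    intro m hm
    rcases all_of_nodup G.nd m with h1 | h1 | h1 | h1 | h1 | h1
    · exact absurd hm (hcon m (Or.inl h1))
    · exact absurd hm (hcon m (Or.inr h1))
    · rw [h1]; simp
    · rw [h1]; simp
    · rw [h1]; simp
    · rw [h1]; simp
  rcases lemmaF h G.dwq G.fq hsub G.dwv (h.sub v G.gv) with h1 | h1
  · exact G.ne h h1
  · exact G.op h (by linear_combination -h1)

/-- **four colours** -/
theorem four (h : Irr U T) (h4 : (T (v + q - z)).ncard ≤ 4) (G : GP T z v q a b c d g p) :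
    ∃ i j, (i = a ∨ i = b) ∧ (j = c ∨ j = d) ∧ T (v + q - z) = {g, i, p, j} := by
  obtain ⟨i, hi, hiw⟩ := G.i_mem h
  obtain ⟨j, hj, hjw⟩ := G.swap.i_mem h
  rw [show q + v - z = v + q - z by ring] at hjw
  refine ⟨i, j, hi, hj, ?_⟩
  have hn := G.nd
  simp only [List.nodup_cons, List.mem_cons, List.not_mem_nil, or_false, not_or, List.nodup_nil,
    and_true, not_false_eq_true] at hn
  obtain ⟨⟨ab, ac, ad, ag, ap⟩, ⟨bc, bd, bg, bp⟩, ⟨cd, cg, cp⟩, ⟨dg, dp⟩, gp⟩ := hn
  have h1 : ({g, i, p, j} : Set (Fin 6)) ⊆ T (v + q - z) := by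
    rintro m (rfl | rfl | rfl | rfl)
    · exact G.g_mem h
    · exact hiw
    · exact G.p_mem h
    · exact hjw
  have h2 : ({g, i, p, j} : Set (Fin 6)).ncard = 4 := by
    have e1 : g ∉ ({i, p, j} : Set (Fin 6)) := by
      simp only [mem_insert_iff, mem_singleton_iff, not_or]
      refine ⟨?_, gp, ?_⟩
      · rcases hi with rfl | rfl
        · exact fun h => ag h.symm
        · exact fun h => bg h.symm
      · rcases hj with rfl | rfl
        · exact fun h => cg h.symm
        · exact fun h => dg h.symm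
    have e2 : i ∉ ({p, j} : Set (Fin 6)) := by
      simp only [mem_insert_iff, mem_singleton_iff, not_or]
      rcases hi with rfl | rfl <;> rcases hj with rfl | rfl
      · exact ⟨ap, ac⟩
      · exact ⟨ap, ad⟩
      · exact ⟨bp, bc⟩
      · exact ⟨bp, bd⟩
    have e3 : p ≠ j := by
      rcases hj with rfl | rfl
      · exact fun h => cp h.symm
      · exact fun h => dp h.symm
    rw [Set.ncard_insert_of_notMem e1 (Set.toFinite _),
      Set.ncard_insert_of_notMem e2 (Set.toFinite _), Set.ncard_pair e3]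
  exact (Set.eq_of_subset_of_ncard_le h1 (by omega) (Set.toFinite _)).symm

/-- a pair inside three colours -/
theorem pair_three {S : Set (Fin 6)} {x y t : Fin 6} (hS : S ⊆ {x, y, t}) (h2 : S.ncard = 2)
    (hxy : x ≠ y) (hxt : x ≠ t) (hyt : y ≠ t) : S = {x, y} ∨ S = {x, t} ∨ S = {y, t} := by
  have key : ∀ r s m : Fin 6, S ⊆ {r, s, m} → r ≠ s → m ∉ S → S = {r, s} := by
    intro r s m h1 hrs hm
    refine Set.eq_of_subset_of_ncard_le (fun n hn => ?_) (by rw [Set.ncard_pair hrs, h2])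
      (Set.toFinite _)
    rcases h1 hn with h3 | h3 | h3
    · exact Or.inl h3
    · exact Or.inr h3
    · exact absurd (h3 ▸ hn) hm
  by_cases ht : t ∈ S
  · by_cases hy : y ∈ S
    · by_cases hx : x ∈ S
      · exfalso
        have h1 : ({x, y, t} : Set (Fin 6)) ⊆ S := by
          rintro m (rfl | rfl | rfl) <;> assumption
        have h3 := Set.ncard_le_ncard h1 (Set.toFinite _)
        have h4 : ({x, y, t} : Set (Fin 6)).ncard = 3 :=
          Set.ncard_eq_three.2 ⟨x, y, t, hxy, hxt, hyt, rfl⟩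
        omega
      · right; right
        refine key y t x (hS.trans ?_) hyt hx
        intro n; simp only [mem_insert_iff, mem_singleton_iff]; tauto
    · right; left
      refine key x t y (hS.trans ?_) hxt hy
      intro n; simp only [mem_insert_iff, mem_singleton_iff]; tauto
  · left
    exact key x y t hS hxy ht

variable {i j : Fin 6}

/-- the other colour of the pair -/
theorem other (G : GP T z v q a b c d g p) (hi : i = a ∨ i = b) :
    ∃ i', (i' = a ∨ i' = b) ∧ i' ≠ i ∧ ∀ m, m = a ∨ m = b → m = i ∨ m = i' := by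
  have hab : a ≠ b := by
    have hn := G.nd
    simp only [List.nodup_cons, List.mem_cons, List.not_mem_nil, or_false, not_or] at hn
    exact hn.1.1
  rcases hi with rfl | rfl
  · exact ⟨b, Or.inr rfl, hab.symm, fun m hm => hm⟩
  · exact ⟨a, Or.inl rfl, hab, fun m hm => hm.symm⟩

/-- the differences between the names -/
theorem names (G : GP T z v q a b c d g p) (hi : i = a ∨ i = b) (hj : j = c ∨ j = d) :
    i ≠ j ∧ i ≠ g ∧ i ≠ p ∧ j ≠ g ∧ j ≠ p ∧ g ≠ p := by
  have hn := G.nd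
  simp only [List.nodup_cons, List.mem_cons, List.not_mem_nil, or_false, not_or, List.nodup_nil,
    and_true, not_false_eq_true] at hn
  obtain ⟨⟨ab, ac, ad, ag, ap⟩, ⟨bc, bd, bg, bp⟩, ⟨cd, cg, cp⟩, ⟨dg, dp⟩, gp⟩ := hn
  rcases hi with rfl | rfl <;> rcases hj with rfl | rfl
  · exact ⟨ac, ag, ap, cg, cp, gp⟩
  · exact ⟨ad, ag, ap, dg, dp, gp⟩
  · exact ⟨bc, bg, bp, cg, cp, gp⟩
  · exact ⟨bd, bg, bp, dg, dp, gp⟩

theorem w_card (G : GP T z v q a b c d g p) (hi : i = a ∨ i = b) (hj : j = c ∨ j = d) :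
    ({g, i, p, j} : Set (Fin 6)).ncard = 4 := by
  obtain ⟨ij, ig, ip, jg, jp, gp⟩ := G.names hi hj
  rw [Set.ncard_insert_of_notMem (by simp [ig.symm, gp, jg.symm]) (Set.toFinite _),
    Set.ncard_insert_of_notMem (by simp [ip, ij]) (Set.toFinite _), Set.ncard_pair jp.symm]

/-- exact points of `S(w)` near `v` -/
theorem near_v (h : Irr U T) (G : GP T z v q a b c d g p) (hi : i = a ∨ i = b)
    (hj : j = c ∨ j = d) (hT : T (v + q - z) = {g, i, p, j}) {V : Set ℂ} (hV : V ∈ 𝓝 v) :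
    ∃ y ∈ V, y ∈ Ex T (v + q - z) (T y) ∧ T y ⊆ T v ∧ (T y).ncard = 2 ∧
      (T y = {g, i} ∨ T y = {g, p} ∨ T y = {i, p}) := by
  obtain ⟨i', hi', hne, hall⟩ := G.other hi
  obtain ⟨ij, ig, ip, jg, jp, gp⟩ := G.names hi hj
  obtain ⟨ij', ig', ip', -, -, -⟩ := G.names hi' hj
  have h1 : z ≠ v + q - z := fun h1 => G.op h (by linear_combination -h1)
  have h2 : z + (v + q - z) ≠ 2 * v := fun h1 => G.ne h (by linear_combination -h1)
  have hiz : i' ∈ T z := by rw [G.pal]; rcases hi' with rfl | rfl <;> simp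
  have hns := not_solid h G.dv (by rw [dist_comm]; exact G.dwv) hiz h1 h2
  have hsub : T v ⊆ insert i' (T (v + q - z)) := by
    intro m hm
    rw [hT]
    rcases G.sv hm with h3 | h3 | h3 | h3
    · rcases hall m (Or.inl h3) with h4 | h4
      · right; rw [h4]; simp
      · left; exact h4
    · rcases hall m (Or.inr h3) with h4 | h4
      · right; rw [h4]; simp
      · left; exact h4
    · right; rw [h3]; simp
    · right; rw [h3]; simp
  obtain ⟨y, hyV, hyE, hyv, hyw, hyi, hy2⟩ := exact_near h (w := v + q - z)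
    (by rw [hT]; exact G.w_card hi hj) (by rw [dist_comm]; exact G.dwv) hns hsub hV
  refine ⟨y, hyV, hyE, hyv, hy2, pair_three (fun m hm => ?_) hy2 ig.symm gp ip⟩
  have h3 := hyw hm
  rw [hT] at h3
  rcases h3 with h3 | h3 | h3 | h3
  · rw [h3]; simp
  · rw [h3]; simp
  · rw [h3]; simp
  · exfalso
    have h4 := G.sv (hyv hm)
    have h3 : m = j := h3
    subst h3
    rcases h4 with h4 | h4 | h4 | h4
    · exact (G.names (Or.inl rfl) hj).1 h4.symm
    · exact (G.names (Or.inr rfl) hj).1 h4.symm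
    · exact jg h4
    · exact jp h4

/-- a special `v`: exact `ip`-points of `S(v)` near `w` -/
theorem spec_pt (h : Irr U T) (G : GP T z v q a b c d g p) (hi : i = a ∨ i = b)
    (hj : j = c ∨ j = d) (hT : T (v + q - z) = {g, i, p, j}) (hpv : p ∈ T v)
    (nv : ∀ y, dist y v = 1 → T y ≠ {g, p}) {V : Set ℂ} (hV : V ∈ 𝓝 (v + q - z)) :
    ∃ t ∈ V, dist t v = 1 ∧ T t = {i, p} := by
  obtain ⟨ij, ig, ip, jg, jp, gp⟩ := G.names hi hj
  have hc : Tendsto (fun y : ℂ => y + v - z) (𝓝 q) (𝓝 (v + q - z)) := by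
    have : Continuous fun y : ℂ => y + v - z := by fun_prop
    have h2 := this.tendsto q
    rwa [show q + v - z = v + q - z by ring] at h2
  have e1 := hc.eventually ((h.nhd (v + q - z)).and (eventually_mem_nhds_iff.2 hV))
  have e2 : ∀ᶠ y in 𝓝 q, y ≠ v := isOpen_ne.mem_nhds (G.ne h).symm
  have e3 : ∀ᶠ y in 𝓝 q, y + v ≠ 2 * z := by
    have : Continuous fun y : ℂ => y + v := by fun_prop
    refine (this.tendsto q).eventually (isOpen_ne.mem_nhds ?_)
    rw [add_comm]; exact G.op h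
  obtain ⟨y, ⟨⟨h1, h1'⟩, h2, h3⟩, hy⟩ := mem_closure_iff_nhds.1 G.hq _ (e1.and (e2.and e3))
  have hd : dist (y + v - z) v = 1 := by
    rw [dist_eq_norm, show y + v - z - v = y - z by ring, ← dist_eq_norm]; exact hy.1
  have hcd : ∀ m, m = c ∨ m = d → m ∉ T (y + v - z) := by
    intro m hm
    exact shift_free h hy G.dv h2 h3 (by rcases hm with rfl | rfl <;> simp)
  have hiv : i ∈ T v := by
    have := sub_of_closure h G.hv
    rcases hi with rfl | rfl
    · exact this (by simp)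
    · exact this (by simp)
  have hsub3 : T (y + v - z) ⊆ {g, i, p} := by
    intro m hm
    have h5 := h1 hm
    rw [hT] at h5
    rcases h5 with h5 | h5 | h5 | h5
    · rw [h5]; simp
    · rw [h5]; simp
    · rw [h5]; simp
    · have h5 : m = j := h5
      exact absurd hm (hcd m (by rw [h5]; exact hj))
  have hsubv : T (y + v - z) ⊆ T v := by
    intro m hm
    rcases hsub3 hm with h5 | h5 | h5
    · rw [h5]; exact G.gv
    · rw [h5]; exact hiv
    · rw [mem_singleton_iff.1 h5]; exact hpv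
  obtain ⟨r, hrV, hrv, -, hrs, hr2, hr3⟩ := h.arc_of_sub (x := v) (y := y + v - z) hd hsubv h1'
  have hv4 : (T v).ncard ≤ 4 := by
    have h5 := Set.ncard_le_ncard G.sv (Set.toFinite _)
    have h6 := Set.ncard_insert_le a ({b, g, p} : Set (Fin 6))
    have h7 := Set.ncard_insert_le b ({g, p} : Set (Fin 6))
    have h8 := Set.ncard_pair gp
    omega
  have h9 := Set.ncard_sdiff (hrs.trans hsubv) (Set.toFinite _)
  have h10 : (T r).ncard = 2 := by omega
  refine ⟨r, hrV, hrv, ?_⟩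
  rcases pair_three (hrs.trans hsub3) h10 ig.symm gp ip with h5 | h5 | h5
  · exfalso
    refine G.fv r hrv ?_
    rw [h5]
    rintro m (rfl | h6)
    · simp
    · rw [mem_singleton_iff.1 h6]
      rcases hi with rfl | rfl <;> simp
  · exact absurd h5 (nv r hrv)
  · exact h5

/-- `S(w)` has no point with palette `{i, p}` if `v` is special -/
theorem no_ip (h : Irr U T) (G : GP T z v q a b c d g p) (hi : i = a ∨ i = b)
    (hj : j = c ∨ j = d) (hT : T (v + q - z) = {g, i, p, j}) (hpv : p ∈ T v)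
    (nv : ∀ y, dist y v = 1 → T y ≠ {g, p}) {y : ℂ} (hy : dist y (v + q - z) = 1)
    (hTy : T y = {i, p}) : False := by
  obtain ⟨ij, ig, ip, jg, jp, gp⟩ := G.names hi hj
  obtain ⟨t, ht, -, hTt⟩ := G.spec_pt h hi hj hT hpv nv (h.no_layer hy)
  have h1 : 4 ≤ (T t).ncard := ht (by rw [hTy, hTt])
  rw [hTt, Set.ncard_pair ip] at h1
  omega

/-- `S(w)` has no point with palette `{g, p}` if an exact arc starts at `q` -/
theorem no_gp (h : Irr U T) (G : GP T z v q a b c d g p) (hi : i = a ∨ i = b)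
    (hj : j = c ∨ j = d) (hT : T (v + q - z) = {g, i, p, j}) (hst : St T z q {c, d}) {y : ℂ}
    (hy : dist y (v + q - z) = 1) (hTy : T y = {g, p}) : False := by
  obtain ⟨ij, ig, ip, jg, jp, gp⟩ := G.names hi hj
  obtain ⟨o, ε, -, hε, harc⟩ := hst
  set qt : ℝ → ℂ := fun t => z + (q - z) * cis (-(o * t)) with hqt
  have hqc : Continuous qt :=
    continuous_const.add (continuous_const.mul (continuous_cis.comp (by fun_prop)))
  have hq0 : qt 0 = q := by
    have h0 : cis 0 = 1 := by simp [cis]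
    rw [hqt]; show z + (q - z) * cis (-(o * 0)) = q
    rw [mul_zero, neg_zero, h0]; ring
  have hF : Continuous fun x : ℂ × ℝ => x.1 + qt x.2 - z :=
    (continuous_fst.add (hqc.comp continuous_snd)).sub continuous_const
  have hnear : ∀ᶠ x in 𝓝 (v + q - z), (({g, p} : Set (Fin 6)) ⊆ T x → 4 ≤ (T x).ncard) ∧
      T x ⊆ {g, i, p, j} := by
    filter_upwards [h.no_layer hy, h.nhd (v + q - z)] with x h1 h2
    refine ⟨fun h3 => h1 (by rw [hTy]; exact h3), by rw [← hT]; exact h2⟩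
  have hbig : ∀ᶠ x : ℂ × ℝ in 𝓝 (v, (0 : ℝ)),
      (((({g, p} : Set (Fin 6)) ⊆ T (x.1 + qt x.2 - z) → 4 ≤ (T (x.1 + qt x.2 - z)).ncard) ∧
      T (x.1 + qt x.2 - z) ⊆ {g, i, p, j})) ∧ x.1 ≠ qt x.2 ∧ x.1 + qt x.2 ≠ 2 * z := by
    refine Filter.Eventually.and ?_ (Filter.Eventually.and ?_ ?_)
    · have h1 : Tendsto (fun x : ℂ × ℝ => x.1 + qt x.2 - z) (𝓝 (v, (0 : ℝ)))
          (𝓝 (v + qt 0 - z)) := hF.tendsto (v, (0 : ℝ))
      rw [hq0] at h1
      exact h1.eventually hnear
    · have h1 : Continuous fun x : ℂ × ℝ => x.1 - qt x.2 :=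
        continuous_fst.sub (hqc.comp continuous_snd)
      have h2 := h1.tendsto (v, (0 : ℝ))
      have h3 : (fun x : ℂ × ℝ => x.1 - qt x.2) (v, (0 : ℝ)) ≠ 0 := by
        show v - qt 0 ≠ 0
        rw [hq0]; exact sub_ne_zero.2 (G.ne h)
      filter_upwards [h2.eventually (isOpen_ne.mem_nhds h3)] with x hx hx'
      exact hx (sub_eq_zero.2 hx')
    · have h1 : Continuous fun x : ℂ × ℝ => x.1 + qt x.2 :=
        continuous_fst.add (hqc.comp continuous_snd)
      have h2 := h1.tendsto (v, (0 : ℝ))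
      have h3 : (fun x : ℂ × ℝ => x.1 + qt x.2) (v, (0 : ℝ)) ≠ 2 * z := by
        show v + qt 0 ≠ 2 * z
        rw [hq0]; exact G.op h
      exact h2.eventually (isOpen_ne.mem_nhds h3)
  obtain ⟨A, hA, B, hB, hAB⟩ := mem_nhds_prod_iff.1 hbig
  obtain ⟨δ, hδ, hball⟩ := Metric.mem_nhds_iff.1 hB
  set τ := min δ ε with hτ
  have hτ0 : 0 < τ := lt_min hδ hε
  have hB0 : (0 : ℝ) ∈ B := hball (by rw [mem_ball, dist_self]; exact hδ)
  have hBt : ∀ t ∈ Ioo 0 τ, t ∈ B := by
    intro t ht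
    refine hball ?_
    rw [mem_ball, Real.dist_eq, sub_zero, abs_of_pos ht.1]
    exact ht.2.trans_le (min_le_left _ _)
  have hE : ∀ t ∈ Ioo 0 τ, qt t ∈ Ex T z {c, d} := fun t ht =>
    harc t ⟨ht.1, ht.2.trans_le (min_le_right _ _)⟩
  have all6 := all_of_nodup G.nd
  -- both colours: all four
  have both : ∀ x, (({g, p} : Set (Fin 6)) ⊆ T x → 4 ≤ (T x).ncard) → T x ⊆ {g, i, p, j} →
      g ∈ T x → p ∈ T x → i ∈ T x ∧ j ∈ T x := by
    intro x h1 h2 h3 h4
    have h5 : 4 ≤ (T x).ncard := h1 (by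
      rintro m (rfl | h6)
      · exact h3
      · rw [mem_singleton_iff.1 h6]; exact h4)
    have h6 : T x = {g, i, p, j} :=
      Set.eq_of_subset_of_ncard_le h2 (by rw [G.w_card hi hj]; exact h5) (Set.toFinite _)
    rw [h6]
    exact ⟨by simp, by simp⟩
  -- the colours at the points of the rectangle
  have hab : ∀ α ∈ A, α ∈ Ex T z {a, b} → ∀ t ∈ B, dist (qt t) z = 1 →
      ∀ m, m = a ∨ m = b → m ∉ T (α + qt t - z) := by
    intro α hα hαE t ht hdt m hm
    have h1 := hAB (show (α, t) ∈ A ×ˢ B from ⟨hα, ht⟩)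
    exact shift_free h hαE hdt h1.2.1 h1.2.2 (by rcases hm with rfl | rfl <;> simp)
  have hcd : ∀ α ∈ A, dist α z = 1 → ∀ t ∈ Ioo 0 τ, ∀ m, m = c ∨ m = d →
      m ∉ T (α + qt t - z) := by
    intro α hα hd t ht m hm
    have h1 := hAB (show (α, t) ∈ A ×ˢ B from ⟨hα, hBt t ht⟩)
    have h2 := shift_free h (hE t ht) hd (i := m) h1.2.1.symm
      (by rw [add_comm]; exact h1.2.2) (by rcases hm with rfl | rfl <;> simp)
    rw [show qt t + α - z = α + qt t - z by ring] at h2
    exact h2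
  -- all points of the rectangle carry `g`
  have key : ∀ α ∈ A, α ∈ Ex T z {a, b} → ∀ t ∈ Ioo 0 τ, g ∈ T (α + qt t - z) := by
    intro α hα hαE t ht
    have hc1 : Continuous fun t : ℝ => α + qt t - z := (continuous_const.add hqc).sub
      continuous_const
    -- the side
    have hs0 := hAB (show (α, (0 : ℝ)) ∈ A ×ˢ B from ⟨hα, hB0⟩)
    have hq0z : dist (qt 0) z = 1 := by rw [hq0]; exact G.dq
    have hside : p ∉ T (α + qt 0 - z) := by
      intro hp
      have hds : dist (α + qt 0 - z) q = 1 := by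
        rw [hq0, dist_eq_norm, show α + q - z - q = α - z by ring, ← dist_eq_norm]
        exact hαE.1
      have hn := hab α hα hαE 0 hB0 hq0z
      have hg : g ∈ T (α + qt 0 - z) := by
        by_contra hg
        refine G.fq _ hds fun m hm => ?_
        rcases all6 m with h1 | h1 | h1 | h1 | h1 | h1
        · exact absurd hm (hn m (Or.inl h1))
        · exact absurd hm (hn m (Or.inr h1))
        · rw [h1]; simp
        · rw [h1]; simp
        · exact absurd (h1 ▸ hm) hg
        · rw [h1]; simp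
      exact hn i hi (both _ hs0.1.1 hs0.1.2 hg hp).1
    have hsmall : ∀ᶠ s : ℝ in 𝓝 0, p ∉ T (α + qt s - z) := by
      have h1 := (hc1.tendsto 0).eventually (h.nhd (α + qt 0 - z))
      filter_upwards [h1] with s hs hp
      exact hside (hs hp)
    have hgp : ∀ s ∈ Ioo 0 τ, g ∈ T (α + qt s - z) ∨ p ∈ T (α + qt s - z) := by
      intro s hs
      obtain ⟨m, hm⟩ := h.ne (α + qt s - z)
      rcases all6 m with h1 | h1 | h1 | h1 | h1 | h1
      · exact absurd hm (hab α hα hαE s (hBt s hs) (hE s hs).1 m (Or.inl h1))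
      · exact absurd hm (hab α hα hαE s (hBt s hs) (hE s hs).1 m (Or.inr h1))
      · exact absurd hm (hcd α hα hαE.1 s hs m (Or.inl h1))
      · exact absurd hm (hcd α hα hαE.1 s hs m (Or.inr h1))
      · left; rw [← h1]; exact hm
      · right; rw [← h1]; exact hm
    by_contra hgt
    have hpt : p ∈ T (α + qt t - z) := (hgp t ht).resolve_left hgt
    -- a point with `g`
    obtain ⟨s, hs, hsτ⟩ : ∃ s, p ∉ T (α + qt s - z) ∧ s ∈ Ioo 0 τ := by
      have h1 : ∀ᶠ s : ℝ in 𝓝[>] 0, p ∉ T (α + qt s - z) := mem_nhdsWithin_of_mem_nhds hsmall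
      have h2 : ∀ᶠ s : ℝ in 𝓝[>] 0, s ∈ Ioo 0 τ := Ioo_mem_nhdsGT hτ0
      exact (h1.and h2).exists
    have hgs : g ∈ T (α + qt s - z) := (hgp s hsτ).resolve_right hs
    have c1 : IsClosed {s : ℝ | g ∈ T (α + qt s - z)} := (h.closed g).preimage hc1
    have c2 : IsClosed {s : ℝ | p ∈ T (α + qt s - z)} := (h.closed p).preimage hc1
    obtain ⟨r, hr, hr1, hr2⟩ := isPreconnected_closed_iff.1 (isPreconnected_Ioo (a := (0 : ℝ))
      (b := τ)) _ _ c1 c2 (fun s hs => hgp s hs) ⟨s, hsτ, hgs⟩ ⟨t, ht, hpt⟩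
    have h1 := hAB (show (α, r) ∈ A ×ˢ B from ⟨hα, hBt r hr⟩)
    exact hab α hα hαE r (hBt r hr) (hE r hr).1 i hi (both _ h1.1.1 h1.1.2 hr1 hr2).1
  -- the other side
  have hvA : v ∈ A := mem_of_mem_nhds hA
  have ht : τ / 2 ∈ Ioo 0 τ := ⟨by linarith, by linarith⟩
  have hg : g ∈ T (v + qt (τ / 2) - z) := by
    have hc2 : Continuous fun α : ℂ => α + qt (τ / 2) - z := by fun_prop
    have c1 : IsClosed {α : ℂ | g ∈ T (α + qt (τ / 2) - z)} := (h.closed g).preimage hc2
    by_contra hcon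
    have hO : {α : ℂ | g ∈ T (α + qt (τ / 2) - z)}ᶜ ∈ 𝓝 v := c1.isOpen_compl.mem_nhds hcon
    obtain ⟨α, ⟨h1, h2⟩, h3⟩ := mem_closure_iff_nhds.1 G.hv _ (inter_mem hO hA)
    exact h1 (key α h2 h3 _ ht)
  have hcdv := hcd v hvA G.dv _ ht
  have hdv : dist (v + qt (τ / 2) - z) v = 1 := by
    rw [dist_eq_norm, show v + qt (τ / 2) - z - v = qt (τ / 2) - z by ring, ← dist_eq_norm]
    exact (hE _ ht).1
  have hp : p ∈ T (v + qt (τ / 2) - z) := by
    by_contra hp
    refine G.fv _ hdv fun m hm => ?_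
    rcases all6 m with h1 | h1 | h1 | h1 | h1 | h1
    · rw [h1]; simp
    · rw [h1]; simp
    · exact absurd hm (hcdv m (Or.inl h1))
    · exact absurd hm (hcdv m (Or.inr h1))
    · rw [h1]; simp
    · exact absurd (h1 ▸ hm) hp
  have h1 := hAB (show (v, τ / 2) ∈ A ×ˢ B from ⟨hvA, hBt _ ht⟩)
  exact hcdv j hj (both _ h1.1.1 h1.1.2 hg hp).2

theorem set_rot (x y r t : Fin 6) : ({x, y, r, t} : Set (Fin 6)) = {r, t, x, y} := by
  ext m
  simp only [mem_insert_iff, mem_singleton_iff]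
  tauto

theorem shift_comm : q + v - z = v + q - z := by ring

/-- the palette of `w`, exchanged names -/
theorem pal_swap (hT : T (v + q - z) = {g, i, p, j}) : T (q + v - z) = {p, j, g, i} := by
  rw [shift_comm, hT]
  exact set_rot g i p j

/-- exact points of `S(w)` near `q` -/
theorem near_q (h : Irr U T) (G : GP T z v q a b c d g p) (hi : i = a ∨ i = b)
    (hj : j = c ∨ j = d) (hT : T (v + q - z) = {g, i, p, j}) {V : Set ℂ} (hV : V ∈ 𝓝 q) :
    ∃ y ∈ V, y ∈ Ex T (v + q - z) (T y) ∧ T y ⊆ T q ∧ (T y).ncard = 2 ∧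
      (T y = {p, j} ∨ T y = {p, g} ∨ T y = {j, g}) := by
  have h1 := G.swap.near_v h hj hi (pal_swap hT) hV
  rw [shift_comm] at h1
  exact h1

theorem pair_sub (hT : T (v + q - z) = {g, i, p, j}) {x y : Fin 6}
    (hx : x ∈ ({g, i, p, j} : Set (Fin 6))) (hy : y ∈ ({g, i, p, j} : Set (Fin 6))) :
    ({x, y} : Set (Fin 6)) ⊆ T (v + q - z) := by
  rw [hT]
  rintro m (rfl | h1)
  · exact hx
  · rw [mem_singleton_iff.1 h1]; exact hy

/-- two pairs of `S(w)` with one common colour -/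
theorem pd (h : Irr U T) (hmn : Mn4 U T) (G : GP T z v q a b c d g p) (hi : i = a ∨ i = b)
    (hj : j = c ∨ j = d) (hT : T (v + q - z) = {g, i, p, j}) {y1 y2 : ℂ} {x x1 x2 : Fin 6}
    (d1 : dist y1 (v + q - z) = 1) (d2 : dist y2 (v + q - z) = 1) (e1 : T y1 = {x, x1})
    (e2 : T y2 = {x, x2}) (k : x ∈ ({g, i, p, j} : Set (Fin 6)))
    (k1 : x1 ∈ ({g, i, p, j} : Set (Fin 6))) (k2 : x2 ∈ ({g, i, p, j} : Set (Fin 6)))
    (n1 : x ≠ x1) (n2 : x ≠ x2) (n12 : x1 ≠ x2) : False := by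
  have hw4 : (T (v + q - z)).ncard = 4 := by rw [hT]; exact G.w_card hi hj
  rcases h.pairs_disjoint hmn hw4 d1 d2 (by rw [e1]; exact pair_sub hT k k1)
    (by rw [e2]; exact pair_sub hT k k2) (by rw [e1, Set.ncard_pair n1])
    (by rw [e2, Set.ncard_pair n2]) with h1 | h1
  · rw [e1, e2] at h1
    have h2 : x1 ∈ ({x, x2} : Set (Fin 6)) := by rw [← h1]; simp
    rcases h2 with h2 | h2
    · exact n1 h2.symm
    · exact n12 h2
  · rw [e1, e2] at h1
    exact Set.disjoint_left.1 h1 (show x ∈ ({x, x1} : Set (Fin 6)) by simp) (by simp)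

/-- no exact `gp`-points on `S(w)` -/
theorem not_gp (h : Irr U T) (hmn : Mn4 U T) (G : GP T z v q a b c d g p) (hi : i = a ∨ i = b)
    (hj : j = c ∨ j = d) (hT : T (v + q - z) = {g, i, p, j})
    (hend : p ∉ T v ∨ g ∉ T q ∨ St T z q {c, d} ∨ St T z v {a, b}) {y : ℂ}
    (hy : dist y (v + q - z) = 1) (hTy : T y = {g, p}) : False := by
  obtain ⟨ij, ig, ip, jg, jp, gp⟩ := G.names hi hj
  have hTy' : T y = {p, g} := hTy.trans (Set.pair_comm _ _)
  have mg : g ∈ ({g, i, p, j} : Set (Fin 6)) := by simp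
  have mi : i ∈ ({g, i, p, j} : Set (Fin 6)) := by simp
  have mp : p ∈ ({g, i, p, j} : Set (Fin 6)) := by simp
  have mj : j ∈ ({g, i, p, j} : Set (Fin 6)) := by simp
  have hpv : p ∈ T v := by
    obtain ⟨y1, -, hE1, hs1, -, hc1⟩ := G.near_v h hi hj hT univ_mem
    rcases hc1 with h1 | h1 | h1
    · exact (G.pd h hmn hi hj hT hE1.1 hy h1 hTy mg mi mp ig.symm gp ip).elim
    · exact hs1 (by rw [h1]; simp)
    · exact hs1 (by rw [h1]; simp)
  have hgq : g ∈ T q := by
    obtain ⟨y2, -, hE2, hs2, -, hc2⟩ := G.near_q h hi hj hT univ_mem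
    rcases hc2 with h1 | h1 | h1
    · exact (G.pd h hmn hi hj hT hE2.1 hy h1 hTy' mp mj mg jp.symm gp.symm jg).elim
    · exact hs2 (by rw [h1]; simp)
    · exact hs2 (by rw [h1]; simp)
  rcases hend with h1 | h1 | h1 | h1
  · exact h1 hpv
  · exact h1 hgq
  · exact G.no_gp h hi hj hT h1 hy hTy
  · exact G.swap.no_gp h hj hi (pal_swap hT) h1 (by rw [shift_comm]; exact hy) hTy'

/-- no exact `ip`-points on `S(w)` -/
theorem not_ip (h : Irr U T) (hmn : Mn4 U T) (G : GP T z v q a b c d g p) (hi : i = a ∨ i = b)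
    (hj : j = c ∨ j = d) (hT : T (v + q - z) = {g, i, p, j})
    (nv : p ∈ T v → ∀ y, dist y v = 1 → T y ≠ {g, p}) {y : ℂ}
    (hy : dist y (v + q - z) = 1) (hTy : T y = {i, p}) : False := by
  obtain ⟨ij, ig, ip, jg, jp, gp⟩ := G.names hi hj
  by_cases hpv : p ∈ T v
  · exact G.no_ip h hi hj hT hpv (nv hpv) hy hTy
  · obtain ⟨y1, -, hE1, hs1, -, hc1⟩ := G.near_v h hi hj hT univ_mem
    rcases hc1 with h1 | h1 | h1
    · exact G.pd h hmn hi hj hT hE1.1 hy (h1.trans (Set.pair_comm _ _)) hTy (by simp) (by simp)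
        (by simp) ig ip gp
    · exact hpv (hs1 (by rw [h1]; simp))
    · exact hpv (hs1 (by rw [h1]; simp))

/-- **The rhombus at good ends**, at `v` -/
theorem rh_v (h : Irr U T) (hmn : Mn4 U T) (G : GP T z v q a b c d g p) (hi : i = a ∨ i = b)
    (hj : j = c ∨ j = d) (hT : T (v + q - z) = {g, i, p, j})
    (nv : p ∈ T v → ∀ y, dist y v = 1 → T y ≠ {g, p})
    (hend : p ∉ T v ∨ g ∉ T q ∨ St T z q {c, d} ∨ St T z v {a, b}) :
    Acc T (v + q - z) {g, i} v := by
  intro V hV
  obtain ⟨y, hyV, hyE, -, -, hc⟩ := G.near_v h hi hj hT hV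
  rcases hc with h1 | h1 | h1
  · exact ⟨y, hyV, hyE.1, by rw [← h1]; exact hyE.2⟩
  · exact (G.not_gp h hmn hi hj hT hend hyE.1 h1).elim
  · exact (G.not_ip h hmn hi hj hT nv hyE.1 h1).elim

/-- **The rhombus at good ends**, at `q` -/
theorem rh_q (h : Irr U T) (hmn : Mn4 U T) (G : GP T z v q a b c d g p) (hi : i = a ∨ i = b)
    (hj : j = c ∨ j = d) (hT : T (v + q - z) = {g, i, p, j})
    (nv : p ∈ T v → ∀ y, dist y v = 1 → T y ≠ {g, p})
    (hend : p ∉ T v ∨ g ∉ T q ∨ St T z q {c, d} ∨ St T z v {a, b}) :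
    Acc T (v + q - z) {p, j} q := by
  obtain ⟨ij, ig, ip, jg, jp, gp⟩ := G.names hi hj
  intro V hV
  obtain ⟨y, hyV, hyE, -, -, hc⟩ := G.near_q h hi hj hT hV
  rcases hc with h1 | h1 | h1
  · exact ⟨y, hyV, hyE.1, by rw [← h1]; exact hyE.2⟩
  · exact (G.not_gp h hmn hi hj hT hend hyE.1 (h1.trans (Set.pair_comm _ _))).elim
  · exfalso
    obtain ⟨y1, -, d1, hy1⟩ := G.rh_v h hmn hi hj hT nv hend univ univ_mem
    have h2 : T y1 = {g, i} := hy1.self_of_nhdsWithin (show y1 ∈ sphere _ 1 from d1)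
    exact G.pd h hmn hi hj hT d1 hyE.1 h2 (h1.trans (Set.pair_comm _ _)) (by simp) (by simp)
      (by simp) ig.symm jg.symm ij

/-- **One centre per pair at a vertex**: two second ends with the same colour `i`. -/
theorem one_centre (h : Irr U T) (hmn : Mn4 U T) {q' : ℂ} {j' : Fin 6}
    (G : GP T z v q a b c d g p) (G' : GP T z v q' a b c d g p) (hi : i = a ∨ i = b)
    (hj : j = c ∨ j = d) (hj' : j' = c ∨ j' = d) (hT : T (v + q - z) = {g, i, p, j})
    (hT' : T (v + q' - z) = {g, i, p, j'}) (nv : p ∈ T v → ∀ y, dist y v = 1 → T y ≠ {g, p})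
    (hend : p ∉ T v ∨ g ∉ T q ∨ St T z q {c, d} ∨ St T z v {a, b}) : q = q' := by
  by_contra hne
  have hA := G.rh_v h hmn hi hj hT nv hend
  refine stripF h (u := v) (u' := q') (q := v + q' - z) (p := v + q - z) (P := {g, i})
    (s := {c, d, p}) G'.fq (G'.ne h) G'.dwv G'.dwq ?_ ?_ ?_ ?_ hA
  · intro h1
    exact G'.op h (by linear_combination -h1)
  · rw [hT']
    rintro m (rfl | rfl | rfl | h1)
    · left; simp
    · left; simp
    · right; simp
    · right
      rw [mem_singleton_iff.1 h1]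
      rcases hj' with rfl | rfl <;> simp
  · intro h1
    obtain ⟨i', hi', hii, -⟩ := G.other hi
    have h2 : i' ∈ T v := by
      have := sub_of_closure h G.hv
      rcases hi' with rfl | rfl
      · exact this (by simp)
      · exact this (by simp)
    rw [h1] at h2
    rcases h2 with h2 | h2
    · exact (G.names hi' hj).2.1 h2
    · exact hii h2
  · intro h1
    exact hne (by linear_combination h1)

/-- at a special `v` the colour `i` is the same for all second ends -/
theorem spec_i (h : Irr U T) (hmn : Mn4 U T) {q' : ℂ} {i' j' : Fin 6}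
    (G : GP T z v q a b c d g p) (G' : GP T z v q' a b c d g p) (hi : i = a ∨ i = b)
    (hj : j = c ∨ j = d) (hi' : i' = a ∨ i' = b) (hj' : j' = c ∨ j' = d)
    (hT : T (v + q - z) = {g, i, p, j}) (hT' : T (v + q' - z) = {g, i', p, j'})
    (hpv : p ∈ T v) (nv : ∀ y, dist y v = 1 → T y ≠ {g, p}) : i = i' := by
  by_contra hne
  obtain ⟨t, -, dt, ht⟩ := G.spec_pt h hi hj hT hpv nv univ_mem
  obtain ⟨t', -, dt', ht'⟩ := G'.spec_pt h hi' hj' hT' hpv nv univ_mem
  obtain ⟨ij, ig, ip, jg, jp, gp⟩ := G.names hi hj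
  obtain ⟨-, ig', ip', -, -, -⟩ := G.names hi' hj'
  have hsub := sub_of_closure h G.hv
  have ha : a ∈ T v := hsub (by simp)
  have hb : b ∈ T v := hsub (by simp)
  have mi : i ∈ T v := by rcases hi with rfl | rfl <;> assumption
  have mi' : i' ∈ T v := by rcases hi' with rfl | rfl <;> assumption
  have hv4 : (T v).ncard = 4 := by
    have h1 : T v = {g, a, p, b} := by
      refine Subset.antisymm (fun m hm => ?_) ?_
      · rcases G.sv hm with h2 | h2 | h2 | h2
        · rw [h2]; simp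
        · rw [h2]; simp
        · rw [h2]; simp
        · rw [mem_singleton_iff.1 h2]; simp
      · rintro m (rfl | rfl | rfl | h2)
        · exact G.gv
        · exact ha
        · exact hpv
        · rw [mem_singleton_iff.1 h2]; exact hb
    have hn := G.nd
    simp only [List.nodup_cons, List.mem_cons, List.not_mem_nil, or_false, not_or,
      List.nodup_nil, and_true, not_false_eq_true] at hn
    obtain ⟨⟨ab, ac, ad, ag, ap⟩, ⟨bc, bd, bg, bp⟩, ⟨cd, cg, cp⟩, ⟨dg, dp⟩, gp⟩ := hn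
    rw [h1, Set.ncard_insert_of_notMem (by simp [Ne.symm ag, gp, Ne.symm bg]) (Set.toFinite _),
      Set.ncard_insert_of_notMem (by simp [ap, ab]) (Set.toFinite _),
      Set.ncard_pair (fun h => bp h.symm)]
  rcases h.pairs_disjoint hmn hv4 dt dt' (by
      rw [ht]; rintro m (rfl | h1)
      · exact mi
      · rw [mem_singleton_iff.1 h1]; exact hpv) (by
      rw [ht']; rintro m (rfl | h1)
      · exact mi'
      · rw [mem_singleton_iff.1 h1]; exact hpv) (by rw [ht, Set.ncard_pair ip])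
    (by rw [ht', Set.ncard_pair ip']) with h1 | h1
  · rw [ht, ht'] at h1
    have h2 : i ∈ ({i', p} : Set (Fin 6)) := by rw [← h1]; simp
    rcases h2 with h2 | h2
    · exact hne h2
    · exact ip h2
  · rw [ht, ht'] at h1
    exact Set.disjoint_left.1 h1 (show p ∈ ({i, p} : Set (Fin 6)) by simp) (by simp)

/-- **A special end has at most one complementary end.** -/
theorem count_special (h : Irr U T) (hmn : Mn4 U T) (h4 : ∀ x, (T x).ncard ≤ 4) {q' : ℂ}
    (G : GP T z v q a b c d g p) (G' : GP T z v q' a b c d g p) (hpv : p ∈ T v)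
    (nv : ∀ y, dist y v = 1 → T y ≠ {g, p})
    (hend : g ∉ T q ∨ St T z q {c, d} ∨ St T z v {a, b}) : q = q' := by
  obtain ⟨i, j, hi, hj, hT⟩ := G.four h (h4 _)
  obtain ⟨i', j', hi', hj', hT'⟩ := G'.four h (h4 _)
  have hii := G.spec_i h hmn G' hi hj hi' hj' hT hT' hpv nv
  subst hii
  exact G.one_centre h hmn G' hi hj hj' hT hT' (fun _ => nv) (Or.inr hend)

/-- **An end has at most two complementary ends.** -/
theorem count_two (h : Irr U T) (hmn : Mn4 U T) (h4 : ∀ x, (T x).ncard ≤ 4) {q1 q2 q3 : ℂ}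
    (G1 : GP T z v q1 a b c d g p) (G2 : GP T z v q2 a b c d g p)
    (G3 : GP T z v q3 a b c d g p) (nv : p ∈ T v → ∀ y, dist y v = 1 → T y ≠ {g, p})
    (hend1 : p ∉ T v ∨ g ∉ T q1 ∨ St T z q1 {c, d} ∨ St T z v {a, b})
    (hend2 : p ∉ T v ∨ g ∉ T q2 ∨ St T z q2 {c, d} ∨ St T z v {a, b}) :
    q1 = q2 ∨ q1 = q3 ∨ q2 = q3 := by
  obtain ⟨i1, j1, hi1, hj1, hT1⟩ := G1.four h (h4 _)
  obtain ⟨i2, j2, hi2, hj2, hT2⟩ := G2.four h (h4 _)
  obtain ⟨i3, j3, hi3, hj3, hT3⟩ := G3.four h (h4 _)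
  by_cases h12 : i1 = i2
  · subst h12
    exact Or.inl (G1.one_centre h hmn G2 hi1 hj1 hj2 hT1 hT2 nv hend1)
  by_cases h13 : i1 = i3
  · subst h13
    exact Or.inr (Or.inl (G1.one_centre h hmn G3 hi1 hj1 hj3 hT1 hT3 nv hend1))
  have h23 : i2 = i3 := by
    rcases hi1 with rfl | rfl <;> rcases hi2 with rfl | rfl <;> rcases hi3 with rfl | rfl <;>
      first | rfl | exact absurd rfl h12 | exact absurd rfl h13
  subst h23
  exact Or.inr (Or.inr (G2.one_centre h hmn G3 hi2 hj2 hj3 hT2 hT3 nv hend2))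

end GP

end Vale.Agent.P032.H642
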