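import Vale.Agent.P032.H642.WildT
import Vale.Agent.P032.H642.Top
import Vale.Agent.P032.H821.Mut
import Vale.Agent.P032.H993.BadW

/-!
# P032: special pairs in irredundant covers with soft walls

`top` : the statement `Top` of `H642/WildT.lean`, from `k3_or_c1`, `s1_wild`, `s2_wild` and
`k3_mutual`.
-/

open Set Filter Topology Metric

noncomputable section

namespace Vale.Agent.P032.H642.WT

open Vale.Agent.P032.Six

theorem top : Top := by
  intro U T h hmn hl h5 h5n
  rcases H642.k3_or_c1 h hmn ⟨h5, h5n⟩ (H993.BW.s1_wild h hmn hl) (H993.BW.s2_wild h hmn hl) with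
    hK | hC
  · obtain ⟨z, a, b, c, d, v, hz, hcl, hv4, hns⟩ := hK
    obtain ⟨a', b', c', d', hz', -, h1, h2⟩ := H821.k3_mutual h hz hcl hv4 hns
    exact Or.inl ⟨z, a', b', c', d', v, hz', h1, h2, hv4⟩
  · exact Or.inr hC

end Vale.Agent.P032.H642.WT
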