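import Vale.Agent.P032.S5.H138.PairV
import Vale.Agent.P032.H849.Soft

/-!
# P032: special pairs, from frames to maximal families

`Four U O`: a point with the palette of all six indices, or a pair of points at distance one with
palettes of five and at least four indices, or a two-pair point with a mutual special end or a tie.
`four_of` : `Four` for every maximal family of free open sets with dense union, from the statement on
irredundant covers with soft walls (`Top`).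
-/

open Set Filter Topology Metric

noncomputable section

namespace Vale.Agent.P032.H642.WT

open Vale.Agent.P032.Six Vale.Agent.P032.S5.H926 Vale.Agent.P032.S5.H843 Vale.Agent.P032.S5.H138

/-- `s` is a palette of `y`: the sets with index in `s` suffice near `y`, and no proper subfamily of
them does -/
def IsPal {E : Type*} [PseudoMetricSpace E] (U : Fin 6 → Set E) (y : E) (s : Set (Fin 6)) : Prop :=
  y ∉ closure ((⋃ j, U j) \ ⋃ i ∈ s, U i) ∧
    ∀ s' ⊂ s, y ∈ closure ((⋃ j, U j) \ ⋃ i ∈ s', U i)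

/-- the points inside arcs of the unit circle about `z` in the closures of `U a` and `U b`, near which
these two sets suffice -/
def ArcU {E : Type*} [PseudoMetricSpace E] (U : Fin 6 → Set E) (z : E) (a b : Fin 6) : Set E :=
  {p | dist p z = 1 ∧ ∃ r > 0, ∀ y, dist y z = 1 → dist y p < r →
    y ∈ closure (U a) ∧ y ∈ closure (U b) ∧
      y ∉ closure ((⋃ j, U j) \ ⋃ i ∈ ({a, b} : Set (Fin 6)), U i)}

/-- the four kinds of points -/
def Four {E : Type*} [PseudoMetricSpace E] (U : Fin 6 → Set E) (O : ℕ → Set E) : Prop :=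
  (∃ z, IsPal U z univ ∧ ∀ k, 3 ≤ k → k < 6 → z ∈ O k) ∨
  (∃ z z' P P', dist z z' = 1 ∧ P.ncard = 5 ∧ IsPal U z P ∧ 4 ≤ P'.ncard ∧ IsPal U z' P' ∧
    (∀ k, 3 ≤ k → k < 5 → z ∈ O k) ∧ ∀ k, 3 ≤ k → k < P'.ncard → z' ∈ O k) ∨
  ∃ z a b c d, [a, b, c, d].Nodup ∧ IsPal U z {a, b, c, d} ∧ z ∈ O 3 ∧
    (ArcU U z a b).Nonempty ∧ (ArcU U z c d).Nonempty ∧
    ((∃ v P, P.ncard = 4 ∧ IsPal U v P ∧ v ∈ O 3 ∧ v ∈ closure (ArcU U z a b) ∧
      z ∈ closure (ArcU U v a c)) ∨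
    ∃ y y' P, P.ncard = 4 ∧ IsPal U y P ∧ y ∈ O 3 ∧ dist y z = 1 ∧ dist y' z = 1 ∧
      dist y y' = 1 ∧ ∀ j, j ∉ [a, b, c, d] → j ∈ P ∧ y' ∈ closure (U j))

/-- the statement on frames -/
def Top : Prop :=
  ∀ (U : Fin 6 → Set ℂ) (T : ℂ → Set (Fin 6)), Irr U T → Mn U T → Ln U T →
    (∀ x, (T x).ncard ≤ 5) → (∀ x y, (T x).ncard = 5 → dist y x = 1 → (T y).ncard ≤ 3) →
    (∃ z a b c d v, DPt T z a b c d ∧
      v ∈ closure {y | dist y z = 1 ∧ ∀ᶠ q in 𝓝[sphere z 1] y, T q = {a, b}} ∧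
      z ∈ closure {y | dist y v = 1 ∧ ∀ᶠ q in 𝓝[sphere v 1] y, T q = {a, c}} ∧
      (T v).ncard = 4) ∨
    ∃ z a b c d y y', DPt T z a b c d ∧ dist y z = 1 ∧ dist y' z = 1 ∧ dist y y' = 1 ∧
      (T z)ᶜ ⊆ T y ∧ (T z)ᶜ ⊆ T y' ∧ (T y).ncard = 4

section frame

variable {U : Fin 6 → Set ℂ} {T : ℂ → Set (Fin 6)}

/-- a palette of at least four colours is a minimal sufficient set -/
theorem isPal_of_T (h : Irr U T) (hmin : Mn U T) (hd : Dense (⋃ i, U i)) {z : ℂ}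
    (hz : 4 ≤ (T z).ncard) : IsPal U z (T z) := by
  refine ⟨Irr_suff h z, fun s hs => ?_⟩
  by_contra hcon
  exact hmin z hz s hs.subset hs.ne (suf_of_notMem hd hcon)

/-- exact arcs -/
theorem arcU_of (h : Irr U T) {z p : ℂ} {a b : Fin 6} (hp : dist p z = 1)
    (hq : ∀ᶠ q in 𝓝[sphere z 1] p, T q = {a, b}) : p ∈ ArcU U z a b := by
  rw [eventually_nhdsWithin_iff, Metric.eventually_nhds_iff] at hq
  obtain ⟨r, hr, h1⟩ := hq
  refine ⟨hp, r, hr, fun y hy hyp => ?_⟩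
  have h2 : T y = {a, b} := h1 hyp hy
  refine ⟨h.sub y (by rw [h2]; simp), h.sub y (by rw [h2]; simp), ?_⟩
  rw [← h2]
  exact Irr_suff h y

theorem arcU_cl (h : Irr U T) {z v : ℂ} {a b : Fin 6}
    (hv : v ∈ closure {y | dist y z = 1 ∧ ∀ᶠ q in 𝓝[sphere z 1] y, T q = {a, b}}) :
    v ∈ closure (ArcU U z a b) :=
  closure_mono (fun _ hy => arcU_of h hy.1 hy.2) hv

theorem card_D {z : ℂ} {a b c d : Fin 6} (hz : DPt T z a b c d) : (T z).ncard = 4 := by
  rw [hz.pal, Set.ncard_insert_of_notMem (by simp [hz.ab, hz.ac, hz.ad]) (Set.toFinite _),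
    Set.ncard_insert_of_notMem (by simp [hz.bc, hz.bd]) (Set.toFinite _), Set.ncard_pair hz.cd]

/-- **The frame**: the points with more than `n` colours in given open sets, soft walls. -/
theorem exists_T_soft {U : Fin 6 → Set ℂ}
    (hU : ∀ i, Maximal (fun W : Set ℂ => IsOpen W ∧ ∀ x ∈ W, ∀ y ∈ W, dist x y ≠ 1) (U i))
    (hd : Dense (⋃ i, U i)) {O : ℕ → Set ℂ} (hO : ∀ n, IsOpen (O n))
    (hX : ∀ n, 3 ≤ n → XU U n ⊆ O n) :
    ∃ T, Irr U T ∧ Mn U T ∧ Ln U T ∧ ∀ v n, 3 ≤ n → n < (T v).ncard → v ∈ O n := by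
  classical
  set N : ℂ → ℕ := fun x =>
    if x ∈ O 3 then (if x ∈ O 4 then (if x ∈ O 5 then 6 else 5) else 4) else 3 with hNdef
  have hNs : ∀ x, ∀ᶠ w in 𝓝 x, N x ≤ N w := by
    intro x
    by_cases hx : x ∈ O 3
    · by_cases hx4 : x ∈ O 4
      · by_cases hx5 : x ∈ O 5
        · filter_upwards [(hO 3).mem_nhds hx, (hO 4).mem_nhds hx4, (hO 5).mem_nhds hx5]
            with w hw hw4 hw5
          simp only [hNdef, if_pos hx, if_pos hx4, if_pos hx5, if_pos hw, if_pos hw4, if_pos hw5,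
            le_refl]
        · filter_upwards [(hO 3).mem_nhds hx, (hO 4).mem_nhds hx4] with w hw hw4
          simp only [hNdef, if_pos hx, if_pos hx4, if_neg hx5, if_pos hw, if_pos hw4]
          split_ifs <;> omega
      · filter_upwards [(hO 3).mem_nhds hx] with w hw
        simp only [hNdef, if_pos hx, if_neg hx4, if_pos hw]
        split_ifs <;> omega
    · filter_upwards with w
      simp only [hNdef, if_neg hx]
      split_ifs <;> omega
  have hN3 : ∀ x, 3 ≤ N x := by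
    intro x
    simp only [hNdef]
    split_ifs <;> omega
  have hex : ∀ n z, z ∉ XU U n → ∃ s : Set (Fin 6), s.ncard ≤ n ∧
      ∀ᶠ w in 𝓝 z, ∃ i ∈ s, w ∈ U i ∨ (w ∈ XX U ∧ i ∈ Pal U w) := by
    intro n z hz
    simp only [XU, mem_ofPred_eq] at hz
    push Not at hz
    obtain ⟨s, hs, hsz⟩ := hz
    exact ⟨s, hs, suf_of_notMem hd hsz⟩
  have hall : ∀ z : ℂ, ∃ s : Set (Fin 6), s.ncard ≤ 6 ∧
      ∀ᶠ w in 𝓝 z, ∃ i ∈ s, w ∈ U i ∨ (w ∈ XX U ∧ i ∈ Pal U w) := by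
    intro z
    refine ⟨univ, (Set.ncard_le_card _).trans (by simp), suf_of_notMem hd ?_⟩
    have : (⋃ j, U j) \ ⋃ i ∈ (univ : Set (Fin 6)), U i = ∅ := by
      rw [sdiff_eq_empty]
      exact fun x hx => by
        obtain ⟨j, hj⟩ := mem_iUnion.1 hx
        exact mem_iUnion₂.2 ⟨j, mem_univ j, hj⟩
    rw [this, closure_empty]
    exact notMem_empty z
  obtain ⟨T, hT, hmin, hle⟩ := exists_frameN (Mx_of_maximal hU hd)
    (fun i x hx => (mem_iff_of_maximal (hU i) x).2 hx) hNs hN3 (fun z _ => by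
      by_cases hz : z ∈ O 3
      · by_cases hz4 : z ∈ O 4
        · by_cases hz5 : z ∈ O 5
          · simpa only [hNdef, if_pos hz, if_pos hz4, if_pos hz5] using hall z
          · simpa only [hNdef, if_pos hz, if_pos hz4, if_neg hz5] using
              hex 5 z fun h => hz5 (hX 5 (by norm_num) h)
        · simpa only [hNdef, if_pos hz, if_neg hz4] using
            hex 4 z fun h => hz4 (hX 4 (by norm_num) h)
      · simpa only [hNdef, if_neg hz] using hex 3 z fun h => hz (hX 3 le_rfl h))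
  obtain ⟨T', k1, k2, -, k4, k5, -⟩ := hT.exists_soft6 hmin
  refine ⟨T', k1, k2, k4, fun v n hn hv => ?_⟩
  rw [k5 v (by omega)] at hv
  have h1 := hle v
  have h6 : (T v).ncard ≤ 6 := (Set.ncard_le_card _).trans (by simp)
  by_contra hcon
  obtain rfl | rfl | rfl : n = 3 ∨ n = 4 ∨ n = 5 := by omega
  · simp only [hNdef, if_neg hcon] at h1
    omega
  · simp only [hNdef, if_neg hcon] at h1
    split_ifs at h1 <;> omega
  · simp only [hNdef, if_neg hcon] at h1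
    split_ifs at h1 <;> omega

/-- **The statement in the complex plane** -/
theorem four_C (top : Top)
    (hU : ∀ i, Maximal (fun W : Set ℂ => IsOpen W ∧ ∀ x ∈ W, ∀ y ∈ W, dist x y ≠ 1) (U i))
    (hd : Dense (⋃ i, U i)) {O : ℕ → Set ℂ} (hO : ∀ n, IsOpen (O n))
    (hX : ∀ n, 3 ≤ n → XU U n ⊆ O n) : Four U O := by
  obtain ⟨T, hT, hmin, hl, hV⟩ := exists_T_soft hU hd hO hX
  have pal : ∀ {z}, 4 ≤ (T z).ncard → IsPal U z (T z) := fun hz => isPal_of_T hT hmin hd hz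
  by_cases h6 : ∃ x, 6 ≤ (T x).ncard
  · obtain ⟨x, hx⟩ := h6
    have h1 : T x = univ := by
      refine Set.eq_of_subset_of_ncard_le (subset_univ _) ?_ (Set.toFinite _)
      rw [Set.ncard_univ, Nat.card_eq_fintype_card, Fintype.card_fin]
      exact hx
    refine Or.inl ⟨x, ?_, fun k hk hk6 => hV x k hk (by omega)⟩
    rw [← h1]
    exact pal (by omega)
  have hle5 : ∀ x, (T x).ncard ≤ 5 := by
    intro x
    by_contra hcon
    exact h6 ⟨x, by omega⟩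
  right
  by_cases h5 : ∃ x y, (T x).ncard = 5 ∧ dist y x = 1 ∧ 4 ≤ (T y).ncard
  · obtain ⟨x, y, hx, hxy, hy⟩ := h5
    exact Or.inl ⟨x, y, T x, T y, by rw [dist_comm]; exact hxy, hx, pal (by omega), hy, pal hy,
      fun k hk hk5 => hV x k hk (by omega), fun k hk hk5 => hV y k hk hk5⟩
  right
  have nodup : ∀ {z a b c d}, DPt T z a b c d → [a, b, c, d].Nodup := by
    intro z a b c d hz
    simp [hz.ab, hz.ac, hz.ad, hz.bc, hz.bd, hz.cd]
  have dpt : ∀ {z a b c d}, DPt T z a b c d → IsPal U z {a, b, c, d} ∧ z ∈ O 3 ∧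
      (ArcU U z a b).Nonempty ∧ (ArcU U z c d).Nonempty := by
    intro z a b c d hz
    have h4 : (T z).ncard = 4 := card_D hz
    obtain ⟨p, hp⟩ := hz.arc1
    obtain ⟨q, hq⟩ := hz.arc2
    refine ⟨?_, hV z 3 le_rfl (by omega), ⟨p, arcU_of hT hp.1 hp.2⟩, ⟨q, arcU_of hT hq.1 hq.2⟩⟩
    rw [← hz.pal]
    exact pal (by omega)
  rcases top U T hT hmin hl hle5 (fun x y hx hxy => by
      by_contra hcon
      exact h5 ⟨x, y, hx, hxy, by omega⟩) with
    ⟨z, a, b, c, d, v, hz, h1, h2, h3⟩ | ⟨z, a, b, c, d, y, y', hz, h1, h2, h3, h4, h7, h8⟩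
  · obtain ⟨k1, k2, k3, k4⟩ := dpt hz
    exact ⟨z, a, b, c, d, nodup hz, k1, k2, k3, k4, Or.inl ⟨v, T v, h3, pal (by omega),
      hV v 3 le_rfl (by omega), arcU_cl hT h1, arcU_cl hT h2⟩⟩
  · obtain ⟨k1, k2, k3, k4⟩ := dpt hz
    refine ⟨z, a, b, c, d, nodup hz, k1, k2, k3, k4, Or.inr ⟨y, y', T y, h8, pal (by omega),
      hV y 3 le_rfl (by omega), h1, h2, h3, fun j hj => ?_⟩⟩
    have hj' : j ∈ (T z)ᶜ := by
      rw [hz.pal]
      intro hcon
      apply hj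
      simpa using hcon
    exact ⟨h4 hj', hT.sub y' (h7 hj')⟩

end frame

/-! ### transport -/

theorem hpal {U : Fin 6 → Set (EuclideanSpace ℝ (Fin 2))} {y : ℂ} {s : Set (Fin 6)}
    (h : IsPal (fun i => φ ⁻¹' U i) y s) : IsPal U (φ y) s := by
  obtain ⟨h1, h2⟩ := h
  rw [hdf, hcl] at h1
  refine ⟨h1, fun s' hs' => ?_⟩
  have h3 := h2 s' hs'
  rw [hdf, hcl] at h3
  exact h3

theorem harc {U : Fin 6 → Set (EuclideanSpace ℝ (Fin 2))} {z p : ℂ} {a b : Fin 6}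
    (h : p ∈ ArcU (fun i => φ ⁻¹' U i) z a b) : φ p ∈ ArcU U (φ z) a b := by
  obtain ⟨hp, r, hr, h1⟩ := h
  refine ⟨by rw [φ.dist_map]; exact hp, r, hr, fun y hy hyp => ?_⟩
  obtain ⟨y', rfl⟩ := φ.surjective y
  rw [φ.dist_map] at hy hyp
  have := h1 y' hy hyp
  rw [hdf, hcl, hcl, hcl] at this
  exact this

theorem harc_cl {U : Fin 6 → Set (EuclideanSpace ℝ (Fin 2))} {z v : ℂ} {a b : Fin 6}
    (h : v ∈ closure (ArcU (fun i => φ ⁻¹' U i) z a b)) : φ v ∈ closure (ArcU U (φ z) a b) := by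
  have h2 : ArcU (fun i => φ ⁻¹' U i) z a b ⊆ φ ⁻¹' ArcU U (φ z) a b := by
    intro p hp
    exact harc (U := U) hp
  have h1 := closure_mono h2 h
  rw [hcl] at h1
  exact h1

theorem harc_ne {U : Fin 6 → Set (EuclideanSpace ℝ (Fin 2))} {z : ℂ} {a b : Fin 6}
    (h : (ArcU (fun i => φ ⁻¹' U i) z a b).Nonempty) : (ArcU U (φ z) a b).Nonempty := by
  obtain ⟨p, hp⟩ := h
  exact ⟨φ p, harc (U := U) hp⟩

theorem hfour {U : Fin 6 → Set (EuclideanSpace ℝ (Fin 2))}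
    {O : ℕ → Set (EuclideanSpace ℝ (Fin 2))}
    (key : Four (fun i => φ ⁻¹' U i) (fun n => φ ⁻¹' O n)) : Four U O := by
  rcases key with ⟨z, h1, h2⟩ | ⟨z, z', P, P', h1, h2, h3, h4, h5, h6, h7⟩ |
    ⟨z, a, b, c, d, nd, h1, h2, h3, h4, h5⟩
  · exact Or.inl ⟨φ z, hpal h1, h2⟩
  · exact Or.inr (Or.inl ⟨φ z, φ z', P, P', by rw [φ.dist_map]; exact h1, h2, hpal h3, h4,
      hpal h5, h6, h7⟩)
  · refine Or.inr (Or.inr ⟨φ z, a, b, c, d, nd, hpal h1, h2, harc_ne h3, harc_ne h4, ?_⟩)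
    rcases h5 with ⟨v, P, k1, k2, k3, k4, k5⟩ | ⟨y, y', P, k1, k2, k3, k4, k5, k6, k7⟩
    · exact Or.inl ⟨φ v, P, k1, hpal k2, k3, harc_cl k4, harc_cl k5⟩
    · refine Or.inr ⟨φ y, φ y', P, k1, hpal k2, k3, by rw [φ.dist_map]; exact k4,
        by rw [φ.dist_map]; exact k5, by rw [φ.dist_map]; exact k6, fun j hj => ?_⟩
      obtain ⟨m1, m2⟩ := k7 j hj
      rw [hcl] at m2
      exact ⟨m1, m2⟩

/-- **The statement in the plane** -/
theorem four_of (top : Top) {U : Fin 6 → Set (EuclideanSpace ℝ (Fin 2))} (hd : Dense (⋃ i, U i))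
    (hU : ∀ i, Maximal (fun W : Set (EuclideanSpace ℝ (Fin 2)) =>
      IsOpen W ∧ ∀ x ∈ W, ∀ y ∈ W, dist x y ≠ 1) (U i))
    {O : ℕ → Set (EuclideanSpace ℝ (Fin 2))} (hO : ∀ n, IsOpen (O n))
    (hX : ∀ n, 3 ≤ n → XU U n ⊆ O n) : Four U O := by
  have hUc : ∀ i, Maximal (fun W : Set ℂ => IsOpen W ∧ ∀ x ∈ W, ∀ y ∈ W, dist x y ≠ 1)
      (φ ⁻¹' U i) := fun i => maximal_preimage (hU i) φ
  have hdc : Dense (⋃ i, φ ⁻¹' U i) := by
    rw [← preimage_iUnion]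
    exact hd.preimage φ.toHomeomorph.isOpenMap
  have hOc : ∀ n, IsOpen (φ ⁻¹' O n) := fun n => (hO n).preimage φ.continuous
  have hXc : ∀ n, 3 ≤ n → XU (fun i => φ ⁻¹' U i) n ⊆ φ ⁻¹' O n := by
    intro n hn x hx
    exact hX n hn (hXU n x hx)
  exact hfour (four_C top hUc hdc hOc hXc)

end Vale.Agent.P032.H642.WT
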